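import Vale.Agent.P370.H305.Iface
import Vale.Agent.P370.H624.Basis
import Vale.Agent.P363.H95.Eigen
import Vale.Agent.P363.H943.Fam

/-!
Problem P370, block C2 (first-order perturbation theory of one heavy nucleus): definitions and the
statements of the pieces.  Scaled units: heavy nucleus of charge 1 at 0, `lam = 1 / Zc`.
-/

namespace Vale.Agent.P370.C2

open MeasureTheory Filter Topology
open Vale.Agent.P363.Stmt Vale.Agent.P363.R.Sob Vale.Agent.P363.H382 Vale.Agent.P363.R.Top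
open Vale.Agent.P363.H95 (OneBody Orth AntiT ofTen cT Eig)
open Vale.Agent.P363.H943 (Fam fam Adm)
open Vale.Agent.P370.H624 (Filled se)
open Vale.Agent.P370.H305 (nel e0)
open scoped ContDiff ENNReal ComplexConjugate

noncomputable section

/-! ### orbitals (piece O) -/

section orb

variable {n : ℕ} {ι : Type} [Fintype ι] [DecidableEq ι]

/-- the orbitals as complex functions -/
def cu (S : Filled n ι) (a : ι) (x : R3) : ℂ := ((S.φ a).1.1 x : ℂ)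

/-- their weak gradients -/
def cgu (S : Filled n ι) (a : ι) (k : Fin 3) (x : R3) : ℂ := (((S.φ a).1.2 k x : ℝ) : ℂ)

/-- all spin-orbitals of the closed shells (`lv a + 1 < n`) are occupied. -/
def Occ (S : Filled n ι) {N : ℕ} (J : Fin N → ι × Fin 2) : Prop :=
  ∀ a, S.lv a + 1 < n → ∀ s : Fin 2, ∃ i, J i = (a, s)

/-- gap between the shell `n - 1` and the next one (shells are numbered from `0`) -/
def gp (n : ℕ) : ℝ := se n - se (n - 1)

end orb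

/-- **Piece O** -/
def OrbStmt : Prop :=
  ∀ (n : ℕ) (ι : Type) [Fintype ι] [DecidableEq ι] (S : Filled n ι),
    OneBody (cu S) (cgu S) ∧ Orth (cu S) ∧
      (∀ a, MemLp (fun r => ((-(1 / ‖r‖) : ℝ) : ℂ) * cu S a r) 2 (volume : Measure R3)) ∧
      ∀ a, Eig (fun r => -(1 / ‖r‖)) (se (S.lv a)) (cu S a) (cgu S a)

/-- **Piece G**: the gap of the noninteracting atom with closed shells and `D` electrons in shell
`n - 1` (generalisation of `P363.R2.h518.StarN.star`; use `Filled.gap_complex`). -/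
def GapStmt : Prop :=
  ∀ (n D : ℕ) (ι : Type) [Fintype ι] [DecidableEq ι] (S : Filled n ι), 1 ≤ n →
    ∀ Ψ : ElectronState (nel n D), ∀ P : Finset (Fin (nel n D) → ι × Fin 2),
      (∀ J, J ∈ P ↔ Occ S J) →
      (e0 n D + gp n) * normSq Ψ - gp n * ∑ J ∈ P, ‖cT (cu S) Ψ J‖ ^ 2 ≤ energy (pot 0) Ψ

/-- **Piece T**: decomposition of a state: `Φ` = part with closed shells filled and the rest in
shell `n - 1`, `Q` = rest, orthogonal to all such products; the free energy splits. -/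
def DecompStmt : Prop :=
  ∀ (n D : ℕ) (ι : Type) [Fintype ι] [DecidableEq ι] (S : Filled n ι), 1 ≤ n →
    ∀ H : OneBody (cu S) (cgu S), ∀ Ψ : ElectronState (nel n D),
      ∃ (c : (Fin (nel n D) → ι × Fin 2) → ℂ) (hc : AntiT c) (Q : ElectronState (nel n D)),
        (∀ J, c J ≠ 0 → Occ S J) ∧
        (∀ s x, Ψ.amp s x = (ofTen H c hc).amp s x + Q.amp s x) ∧
        (∀ s i k x, Ψ.grad s i k x = (ofTen H c hc).grad s i k x + Q.grad s i k x) ∧
        (∀ J, Occ S J → cT (cu S) Q J = 0) ∧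
        normSq (ofTen H c hc) = ∑ J, ‖c J‖ ^ 2 ∧
        normSq Ψ = normSq (ofTen H c hc) + normSq Q ∧
        energy (pot 0) (ofTen H c hc) = e0 n D * normSq (ofTen H c hc) ∧
        energy (pot 0) Ψ = e0 n D * normSq (ofTen H c hc) + energy (pot 0) Q

/-- the energy of an `ofTen` state over good tensors -/
def TenEnStmt : Prop :=
  ∀ (n D : ℕ) (ι : Type) [Fintype ι] [DecidableEq ι] (S : Filled n ι), 1 ≤ n →
    ∀ (H : OneBody (cu S) (cgu S)) (c : (Fin (nel n D) → ι × Fin 2) → ℂ) (hc : AntiT c),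
      (∀ J, c J ≠ 0 → Occ S J) →
        energy (pot 0) (ofTen H c hc) = e0 n D * ∑ J, ‖c J‖ ^ 2 ∧
          normSq (ofTen H c hc) = ∑ J, ‖c J‖ ^ 2

/-! ### the perturbation -/

/-- attraction by the light unit charges at `y k`, `k ∈ L`, plus repulsion -/
def pV {κ : Type} (L : Finset κ) (y : κ → R3) {N : ℕ} (x : Conf N) : ℝ :=
  sumPotential (fun r => -∑ k ∈ L, 1 / ‖r - y k‖) x + rep x

/-- its expectation -/
def V1 {κ : Type} (L : Finset κ) (y : κ → R3) {N : ℕ} (Φ : ElectronState N) : ℝ :=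
  ∑ s, intR fun x => pV L y x * ‖Φ.amp s x‖ ^ 2

/-- kinetic energy without the factor `1/2` -/
def kin {N : ℕ} (Φ : ElectronState N) : ℝ := ∑ s, ∑ i, ∑ k, intR fun x => ‖Φ.grad s i k x‖ ^ 2

/-- **Piece H**: Hardy's inequality for the perturbation. -/
def HardyStmt : Prop :=
  ∀ (κ : Type) (L : Finset κ) (y : κ → R3) (N : ℕ),
    Adm (pV L y : Conf N → ℝ) ∧
    (∀ Φ Q : ElectronState N, ‖Fam.pot (pV L y) (fam Φ) (fam Q)‖ ≤
      2 * N * (L.card + N) * Real.sqrt (kin Φ) * Real.sqrt (normSq Q)) ∧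
    (∀ Q : ElectronState N, -(L.card * (kin Q + N * normSq Q)) ≤ V1 L y Q) ∧
    ∀ Φ : ElectronState N, kin Φ ≤ 4 * (energy (pot 0) Φ + 4 * N * normSq Φ)

/-- **Piece S**: scaling. -/
def ScaleStmt : Prop :=
  ∀ (κ : Type) (L : Finset κ) (y : κ → R3) (N Zc M : ℕ) (Z : Fin M → ℕ) (R : Fin M → R3),
    1 ≤ Zc → (∀ x : R3, ∑ j, (Z j : ℝ) / ‖x - R j‖ =
      Zc / ‖x‖ + ∑ k ∈ L, 1 / ‖x - (1 / (Zc : ℝ)) • y k‖) →
    (∀ Ψ : ElectronState N, normSq Ψ = 1 →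
      groundEnergy N Z R ≤ (Zc : ℝ) ^ 2 * energy (pot 0) Ψ + Zc * V1 L y Ψ) ∧
    ∀ E : ℝ, (∃ Ψ : ElectronState N, normSq Ψ = 1) → (∀ Ψ : ElectronState N, normSq Ψ = 1 →
      E ≤ (Zc : ℝ) ^ 2 * energy (pot 0) Ψ + Zc * V1 L y Ψ) → E ≤ groundEnergy N Z R

/-! ### the theorem -/

/-- **C2, upper bound** -/
def UpperStmt : Prop :=
  ∀ (n D : ℕ) (ι : Type) [Fintype ι] [DecidableEq ι] (S : Filled n ι), 1 ≤ n →
    ∀ (κ : Type) (L : Finset κ) (y : κ → R3) (Zc M : ℕ) (Z : Fin M → ℕ) (R : Fin M → R3),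
    1 ≤ Zc → (∀ x : R3, ∑ j, (Z j : ℝ) / ‖x - R j‖ =
      Zc / ‖x‖ + ∑ k ∈ L, 1 / ‖x - (1 / (Zc : ℝ)) • y k‖) →
    ∀ (H : OneBody (cu S) (cgu S)) (c : (Fin (nel n D) → ι × Fin 2) → ℂ) (hc : AntiT c),
      (∀ J, c J ≠ 0 → Occ S J) → ∑ J, ‖c J‖ ^ 2 = 1 →
      groundEnergy (nel n D) Z R ≤ (Zc : ℝ) ^ 2 * e0 n D + Zc * V1 L y (ofTen H c hc)

/-- **C2, lower bound**; `N = nel n D` electrons, `L.card` light unit charges. -/
def LowerStmt : Prop :=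
  ∀ (n D : ℕ) (ι : Type) [Fintype ι] [DecidableEq ι] (S : Filled n ι), 1 ≤ n →
    ∀ (κ : Type) (L : Finset κ) (y : κ → R3) (Zc M : ℕ) (Z : Fin M → ℕ) (R : Fin M → R3),
    1 ≤ nel n D → 1000 * n ^ 3 * (nel n D) ^ 2 * (L.card + nel n D) ≤ Zc →
    (∀ x : R3, ∑ j, (Z j : ℝ) / ‖x - R j‖ =
      Zc / ‖x‖ + ∑ k ∈ L, 1 / ‖x - (1 / (Zc : ℝ)) • y k‖) →
    ∀ (H : OneBody (cu S) (cgu S)) (μ : ℝ),
      (∃ (c : (Fin (nel n D) → ι × Fin 2) → ℂ) (_ : AntiT c), (∀ J, c J ≠ 0 → Occ S J) ∧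
        ∑ J, ‖c J‖ ^ 2 = 1) →
      (∀ (c : (Fin (nel n D) → ι × Fin 2) → ℂ) (hc : AntiT c), (∀ J, c J ≠ 0 → Occ S J) →
        ∑ J, ‖c J‖ ^ 2 = 1 → μ ≤ V1 L y (ofTen H c hc)) →
      (Zc : ℝ) ^ 2 * e0 n D + Zc * μ -
        1000 * n ^ 3 * (nel n D : ℝ) ^ 3 * (L.card + nel n D) ^ 2 ≤ groundEnergy (nel n D) Z R

end

end Vale.Agent.P370.C2
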