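import Vale.Agent.P370.C2.Defs
import Vale.Agent.P370.H546.Hardy

/-!
P370, block C2, piece H: Hardy's inequality for the perturbation (`HardyStmt`).
-/

namespace Vale.Agent.P370.C2

open MeasureTheory Filter Topology
open Vale.Agent.P363.Stmt Vale.Agent.P363.R.Sob Vale.Agent.P363.R.Top
open Vale.Agent.P363.H382 (dir toFS incl amH amF amb_none_ae kinE_toFS normSq_toFS potB)
open Vale.Agent.P363.H518 (pI pI_apply pI_dir pD pD_apply pD_dir)
open Vale.Agent.P363.H943 (Fam fam Adm)
open Vale.Agent.P370.H546 (light pert M2 sqBd_pert pert_ge light_le light_int)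
open scoped ContDiff ENNReal ComplexConjugate

noncomputable section

variable {N : ℕ}

theorem pV_eq {κ : Type} (L : Finset κ) (y : κ → R3) (x : Conf N) :
    pV L y x = pert L (fun _ => 1) y x := by
  unfold pV sumPotential pert light
  rw [Finset.sum_neg_distrib]
  ring

theorem adm_pVh {κ : Type} (L : Finset κ) (y : κ → R3) : Adm (pV L y : Conf N → ℝ) := by
  have hm : Measurable (pV L y : Conf N → ℝ) := by
    have : (pV L y : Conf N → ℝ) = pert L (fun _ => 1) y := funext fun x => pV_eq L y x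
    rw [this]
    exact H546.measurable_pert L _ y
  refine ⟨hm.aestronglyMeasurable, fun f g hf hg hwd => ?_⟩
  have h1 : ∀ (i : Fin N) (a : R3), Integrable (fun x : Conf N => ‖f x‖ ^ 2 / ‖x i - a‖) := by
    intro i a
    have h := (coulomb_le (μ := (volume : Measure (Conf N))) (pI i) a (fun k => dir i k)
      (pI_dir i) hf (fun k => hg i k) (fun k => hwd i k)).1
    simpa only [pI_apply] using h
  have h2 : ∀ (i j : Fin N), i < j →
      Integrable (fun x : Conf N => ‖f x‖ ^ 2 / ‖x i - x j‖) := by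
    intro i j hij
    have h := (coulomb_le (μ := (volume : Measure (Conf N))) (pD i j) 0 (fun k => dir i k)
      (pD_dir hij) hf (fun k => hg i k) (fun k => hwd i k)).1
    simpa only [pD_apply, sub_zero] using h
  have e : (fun x : Conf N => pV L y x * ‖f x‖ ^ 2) = fun x =>
      (∑ i, ∑ j ∈ Finset.Ioi i, ‖f x‖ ^ 2 / ‖x i - x j‖) -
        ∑ i, ∑ k ∈ L, ‖f x‖ ^ 2 / ‖x i - y k‖ := by
    funext x
    rw [pV_eq]
    unfold pert rep light
    rw [sub_mul, Finset.sum_mul, Finset.sum_mul]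
    congr 1
    · refine Finset.sum_congr rfl fun i _ => ?_
      rw [Finset.sum_mul]
      exact Finset.sum_congr rfl fun j _ => by ring
    · refine Finset.sum_congr rfl fun i _ => ?_
      rw [Finset.sum_mul]
      exact Finset.sum_congr rfl fun j _ => by ring
  rw [e]
  refine Integrable.sub ?_ ?_
  · exact integrable_finsetSum _ fun i _ => integrable_finsetSum _ fun j hj =>
      h2 i j (Finset.mem_Ioi.1 hj)
  · exact integrable_finsetSum _ fun i _ => integrable_finsetSum _ fun k _ => h1 i (y k)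

theorem kin_eq_kin (Φ : ElectronState N) : kin Φ = Vale.Agent.P363.H382.kin (incl (toFS Φ)).1 :=
  kinE_toFS Φ

theorem normSq_eq_amH (Φ : ElectronState N) : normSq Φ = ‖amH (incl (toFS Φ))‖ ^ 2 :=
  normSq_toFS Φ

theorem amp_ae (Φ : ElectronState N) (s : Fin N → Fin 2) :
    (incl (toFS Φ)).1 (s, none) =ᵐ[volume] Φ.amp s := amb_none_ae Φ s

theorem pot_eq_potB {κ : Type} (L : Finset κ) (y : κ → R3) (Φ Q : ElectronState N) :
    Fam.pot (pV L y) (fam Φ) (fam Q) =
      potB (pert L (fun _ => 1) y) (incl (toFS Φ)) (incl (toFS Q)) := by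
  unfold Fam.pot potB
  refine Finset.sum_congr rfl fun s _ => integral_congr_ae ?_
  filter_upwards [amp_ae Φ s, amp_ae Q s] with x h1 h2
  rw [h1, h2, pV_eq]
  rfl

theorem V1_eq {κ : Type} (L : Finset κ) (y : κ → R3) (Q : ElectronState N) :
    V1 L y Q = ∑ s, ∫ x : Conf N, pert L (fun _ => 1) y x *
      ‖(incl (toFS Q)).1 (s, none) x‖ ^ 2 := by
  unfold V1
  refine Finset.sum_congr rfl fun s _ => integral_congr_ae ?_
  filter_upwards [amp_ae Q s] with x h1
  rw [h1, pV_eq]

theorem card_sum {κ : Type} (L : Finset κ) : ∑ _k ∈ L, (1 : ℝ) = L.card := by simp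

theorem hardy_cross {κ : Type} (L : Finset κ) (y : κ → R3) (Φ Q : ElectronState N) :
    ‖Fam.pot (pV L y) (fam Φ) (fam Q)‖ ≤
      2 * N * (L.card + N) * Real.sqrt (kin Φ) * Real.sqrt (normSq Q) := by
  have h := (sqBd_pert (N := N) L (c := fun _ => (1 : ℝ)) (fun _ _ => zero_le_one) y).cross
    (incl (toFS Φ)) (incl (toFS Q))
  rw [← pot_eq_potB, ← kin_eq_kin, card_sum] at h
  have h2 : ‖amH (incl (toFS Q))‖ = Real.sqrt (normSq Q) := by
    rw [normSq_eq_amH, Real.sqrt_sq (norm_nonneg _)]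
  rw [h2] at h
  refine h.trans (mul_le_mul_of_nonneg_right ?_ (Real.sqrt_nonneg _))
  rw [Real.sqrt_mul (H546.M2_nonneg _ _)]
  refine mul_le_mul_of_nonneg_right ?_ (Real.sqrt_nonneg _)
  rw [Real.sqrt_le_left (by positivity)]
  unfold M2
  have h3 : (N : ℝ) ≤ (N : ℝ) ^ 2 := by
    rcases Nat.eq_zero_or_pos N with h0 | h0
    · subst h0; simp
    · have : (1 : ℝ) ≤ N := by exact_mod_cast h0
      nlinarith
  have h4 := mul_le_mul_of_nonneg_right h3 (by positivity : (0 : ℝ) ≤ 4 * ((N : ℝ) + L.card) ^ 2)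
  refine le_trans (le_of_eq ?_) (h4.trans (le_of_eq ?_)) <;> ring

theorem V1_geh {κ : Type} (L : Finset κ) (y : κ → R3) (Q : ElectronState N) :
    -(L.card * (kin Q + N * normSq Q)) ≤ V1 L y Q := by
  have h := pert_ge (N := N) L (c := fun _ => (1 : ℝ)) (fun _ _ => zero_le_one) y
    (incl (toFS Q)) one_pos
  rw [← V1_eq, ← kin_eq_kin, ← normSq_eq_amH, card_sum] at h
  refine le_trans (le_of_eq ?_) h
  ring

theorem pot_zero_eq (x : Conf N) :
    pot 0 x = -light (Finset.univ : Finset Unit) (fun _ => 1) (fun _ => 0) x := by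
  unfold pot light
  simp

theorem kin_le (Φ : ElectronState N) :
    kin Φ ≤ 4 * (energy (pot 0) Φ + 4 * N * normSq Φ) := by
  have h := light_le (N := N) (Finset.univ : Finset Unit) (c := fun _ => (1 : ℝ))
    (fun _ _ => zero_le_one) (fun _ => (0 : R3)) (incl (toFS Φ)) (η := 1 / 4) (by norm_num)
  rw [← kin_eq_kin, ← normSq_eq_amH] at h
  have e1 : energy (pot 0) Φ = (1 / 2) * kin Φ -
      ∑ s, ∫ x : Conf N, light (Finset.univ : Finset Unit) (fun _ => 1) (fun _ => 0) x *
        ‖(incl (toFS Φ)).1 (s, none) x‖ ^ 2 := by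
    unfold energy
    rw [sub_eq_add_neg, ← Finset.sum_neg_distrib]
    congr 1
    refine Finset.sum_congr rfl fun s _ => ?_
    rw [← integral_neg]
    refine integral_congr_ae ?_
    filter_upwards [amp_ae Φ s] with x h1
    rw [h1, pot_zero_eq]
    ring
  rw [e1]
  have h5 : (∑ k ∈ (Finset.univ : Finset Unit), (fun _ => (1 : ℝ)) k) = 1 := by simp
  rw [h5] at h
  linarith

/-- **Piece H.** -/
theorem hardyStmt : HardyStmt := fun _κ L y _N =>
  ⟨adm_pVh L y, hardy_cross L y, V1_geh L y, kin_le⟩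

end

end Vale.Agent.P370.C2
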