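import Vale.Agent.P370.C2.Scale

/-!
Problem P370, block C2, piece A: assembly of first-order perturbation theory.
-/

namespace Vale.Agent.P370.C2

open MeasureTheory Filter Topology
open Vale.Agent.P363.Stmt Vale.Agent.P363.R.Sob Vale.Agent.P363.H382 Vale.Agent.P363.R.Top
open Vale.Agent.P363.H95 (OneBody Orth AntiT ofTen cT Eig)
open Vale.Agent.P363.H943 (Fam fam Adm)
open Vale.Agent.P370.H624 (Filled se)
open Vale.Agent.P370.H305 (nel e0)
open scoped ContDiff ENNReal ComplexConjugate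

noncomputable section

/-! ### upper bound -/

theorem upper_of (hS : ScaleStmt) (hT : TenEnStmt) : UpperStmt := by
  intro n D ι _ _ S hn κ L y Zc M Z R hZ h H c hc hocc h1
  obtain ⟨e1, e2⟩ := hT n D ι S hn H c hc hocc
  have := (hS κ L y (nel n D) Zc M Z R hZ h).1 (ofTen H c hc) (by rw [e2, h1])
  rwa [e1, h1, mul_one] at this

/-! ### forms -/

section forms

variable {N : ℕ} {w : Conf N → ℝ}

theorem pot_self (w : Conf N → ℝ) (F : Fam N) :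
    Fam.pot w F F = ((∑ s, ∫ x, w x * ‖F.amp s x‖ ^ 2 : ℝ) : ℂ) := by
  unfold Fam.pot
  push_cast
  refine Finset.sum_congr rfl fun s _ => ?_
  rw [← integral_complex_ofReal]
  refine integral_congr_ae (Eventually.of_forall fun x => ?_)
  simp only [Complex.conj_mul']
  push_cast
  rfl

theorem pot_add_right (hw : Adm w) (F G G' : Fam N) :
    Fam.pot w F (G.add G') = Fam.pot w F G + Fam.pot w F G' := by
  rw [← Fam.pot_conj w _ F, Fam.pot_add_left hw, map_add, Fam.pot_conj, Fam.pot_conj]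

/-- the potential energy of a sum -/
theorem pot_sum (hw : Adm w) {Ψ Φ Q : ElectronState N}
    (h : ∀ s x, Ψ.amp s x = Φ.amp s x + Q.amp s x) :
    (∑ s, intR fun x => w x * ‖Ψ.amp s x‖ ^ 2) = (∑ s, intR fun x => w x * ‖Φ.amp s x‖ ^ 2) +
      2 * (Fam.pot w (fam Φ) (fam Q)).re + ∑ s, intR fun x => w x * ‖Q.amp s x‖ ^ 2 := by
  have e1 : Fam.pot w (fam Ψ) (fam Ψ) =
      Fam.pot w ((fam Φ).add (fam Q)) ((fam Φ).add (fam Q)) := by
    unfold Fam.pot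
    refine Finset.sum_congr rfl fun s _ => integral_congr_ae (Eventually.of_forall fun x => ?_)
    show (w x : ℂ) * (conj (Ψ.amp s x) * Ψ.amp s x) =
      (w x : ℂ) * (conj (Φ.amp s x + Q.amp s x) * (Φ.amp s x + Q.amp s x))
    rw [h s x]
  rw [Fam.pot_add_left hw, pot_add_right hw, pot_add_right hw, pot_self, pot_self, pot_self,
    ← Fam.pot_conj w (fam Φ) (fam Q)] at e1
  have e2 : ((∑ s, ∫ x, w x * ‖(fam Ψ).amp s x‖ ^ 2 : ℝ) : ℂ) =
      ((∑ s, ∫ x, w x * ‖(fam Φ).amp s x‖ ^ 2 : ℝ) : ℂ) +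
      (Fam.pot w (fam Φ) (fam Q) + conj (Fam.pot w (fam Φ) (fam Q))) +
      ((∑ s, ∫ x, w x * ‖(fam Q).amp s x‖ ^ 2 : ℝ) : ℂ) := by
    rw [e1]; ring
  rw [Complex.add_conj] at e2
  exact_mod_cast e2

theorem V1_sum {κ : Type} (L : Finset κ) (y : κ → R3) {Ψ Φ Q : ElectronState N}
    (h : ∀ s x, Ψ.amp s x = Φ.amp s x + Q.amp s x) :
    V1 L y Ψ = V1 L y Φ + 2 * (Fam.pot (pV L y) (fam Φ) (fam Q)).re + V1 L y Q :=
  pot_sum (adm_pV L y) h

theorem V1_eq_pot {κ : Type} (L : Finset κ) (y : κ → R3) (Φ : ElectronState N) :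
    Fam.pot (pV L y) (fam Φ) (fam Φ) = ((V1 L y Φ : ℝ) : ℂ) := pot_self _ _

end forms

/-! ### scaling of the tensor -/

section ten

variable {N : ℕ} {ι : Type} [Fintype ι] {u : ι → R3 → ℂ} {gu : ι → Fin 3 → R3 → ℂ}

omit [Fintype ι] in
theorem antiT_smul {c : (Fin N → ι × Fin 2) → ℂ} (hc : AntiT c) (t : ℂ) :
    AntiT (fun J => t * c J) := by
  intro σ J
  simp only [hc σ J]
  ring

theorem V1_smul {κ : Type} (L : Finset κ) (y : κ → R3) (H : OneBody u gu)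
    {c : (Fin N → ι × Fin 2) → ℂ} (hc : AntiT c) (t : ℂ) :
    V1 L y (ofTen H _ (antiT_smul hc t)) = ‖t‖ ^ 2 * V1 L y (ofTen H c hc) := by
  unfold V1
  rw [Finset.mul_sum]
  refine Finset.sum_congr rfl fun s _ => ?_
  rw [intR_eq, intR_eq, ← integral_const_mul]
  refine integral_congr_ae (Eventually.of_forall fun x => ?_)
  have : (ofTen H _ (antiT_smul hc t)).amp s x = t * (ofTen H c hc).amp s x := by
    simp only [ofTen, Finset.mul_sum]
    exact Finset.sum_congr rfl fun a _ => by ring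
  simp only [this, norm_mul, mul_pow]
  ring

theorem V1_zero {κ : Type} (L : Finset κ) (y : κ → R3) (H : OneBody u gu)
    {c : (Fin N → ι × Fin 2) → ℂ} (hc : AntiT c) (h0 : ∀ J, c J = 0) :
    V1 L y (ofTen H c hc) = 0 := by
  unfold V1
  refine Finset.sum_eq_zero fun s _ => ?_
  have : ∀ x, (ofTen H c hc).amp s x = 0 := fun x => by simp [ofTen, h0]
  simp [intR_eq, this]

/-- homogeneous form of the lower bound for the first-order energies -/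
theorem V1_ge {κ : Type} (L : Finset κ) (y : κ → R3) (H : OneBody u gu) {μ : ℝ}
    {P : (Fin N → ι × Fin 2) → Prop}
    (hμ : ∀ (c : (Fin N → ι × Fin 2) → ℂ) (hc : AntiT c), (∀ J, c J ≠ 0 → P J) →
        ∑ J, ‖c J‖ ^ 2 = 1 → μ ≤ V1 L y (ofTen H c hc))
    (c : (Fin N → ι × Fin 2) → ℂ) (hc : AntiT c) (hP : ∀ J, c J ≠ 0 → P J) :
    μ * ∑ J, ‖c J‖ ^ 2 ≤ V1 L y (ofTen H c hc) := by
  set a : ℝ := ∑ J, ‖c J‖ ^ 2 with ha
  have ha0 : 0 ≤ a := Finset.sum_nonneg fun J _ => by positivity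
  rcases ha0.eq_or_lt with h0 | hpos
  · have hz : ∀ J, c J = 0 := by
      intro J
      have := (Finset.sum_eq_zero_iff_of_nonneg (fun J _ => by positivity)).1 h0.symm J
        (Finset.mem_univ J)
      simpa using this
    rw [V1_zero L y H hc hz, ← h0, mul_zero]
  · set t : ℝ := (Real.sqrt a)⁻¹ with ht
    have hsq : Real.sqrt a ^ 2 = a := Real.sq_sqrt ha0
    have ht2 : ‖(t : ℂ)‖ ^ 2 = a⁻¹ := by
      rw [Complex.norm_real, Real.norm_eq_abs, sq_abs, ht, inv_pow, hsq]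
    have h1 := hμ _ (antiT_smul hc (t : ℂ)) (fun J hJ => hP J fun h => hJ (by simp [h])) (by
      simp only [norm_mul, mul_pow, ht2]
      rw [← Finset.mul_sum, ← ha, inv_mul_cancel₀ hpos.ne'])
    rw [V1_smul, ht2] at h1
    have h2 := mul_le_mul_of_nonneg_right h1 ha0
    rwa [mul_comm a⁻¹, mul_assoc, inv_mul_cancel₀ hpos.ne', mul_one] at h2

end ten

/-! ### numbers -/

theorem gp_eq {n : ℕ} (hn : 1 ≤ n) : gp n = (2 * n + 1) / (2 * (n : ℝ) ^ 2 * ((n : ℝ) + 1) ^ 2) := by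
  unfold gp se
  have h1 : (((n - 1 : ℕ) : ℝ)) = (n : ℝ) - 1 := by
    rw [Nat.cast_sub hn, Nat.cast_one]
  have h2 : (0 : ℝ) < n := by exact_mod_cast hn
  rw [h1, sub_add_cancel]
  field_simp
  ring

theorem gp_ge {n : ℕ} (hn : 1 ≤ n) : 1 ≤ 4 * (n : ℝ) ^ 3 * gp n := by
  have h2 : (1 : ℝ) ≤ n := by exact_mod_cast hn
  rw [gp_eq hn, mul_div_assoc', le_div_iff₀ (by positivity)]
  nlinarith [mul_nonneg (sq_nonneg (n : ℝ)) (sub_nonneg.2 h2), sq_nonneg ((n : ℝ) ^ 2),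
    mul_nonneg (mul_nonneg (sq_nonneg (n : ℝ)) (sub_nonneg.2 h2)) (sub_nonneg.2 h2)]

theorem gp_le {n : ℕ} (hn : 1 ≤ n) : gp n ≤ 1 / (2 * (n : ℝ) ^ 2) := by
  have h2 : (1 : ℝ) ≤ n := by exact_mod_cast hn
  rw [gp_eq hn, div_le_div_iff₀ (by positivity) (by positivity)]
  nlinarith [mul_nonneg (sq_nonneg (n : ℝ)) (sub_nonneg.2 h2), sq_nonneg ((n : ℝ) ^ 2)]

theorem gp_pos {n : ℕ} (hn : 1 ≤ n) : 0 < gp n := by
  have h2 : (0 : ℝ) < n := by exact_mod_cast hn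
  rw [gp_eq hn]
  positivity

theorem e0_add_gp {n D : ℕ} (hn : 1 ≤ n) (hN : 1 ≤ nel n D) : e0 n D + gp n ≤ 0 := by
  have h1 : (1 : ℝ) ≤ n := by exact_mod_cast hn
  have hg := gp_le hn
  unfold e0
  have h3 : (0 : ℝ) ≤ (D : ℝ) / (2 * (n : ℝ) ^ 2) := by positivity
  rcases Nat.lt_or_ge 1 n with h | h
  · have h4 : (2 : ℝ) ≤ n := by exact_mod_cast h
    have h5 : 1 / (2 * (n : ℝ) ^ 2) ≤ 1 := by
      rw [div_le_one (by positivity)]; nlinarith
    linarith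
  · have h4 : n = 1 := le_antisymm h hn
    subst h4
    have hD : 1 ≤ D := by
      simpa [nel] using hN
    have hD' : (1 : ℝ) ≤ D := by exact_mod_cast hD
    norm_num at hg ⊢
    linarith

/-- first conditions on `Z` -/
theorem arithZ {n N l Z g : ℝ} (hn : 1 ≤ n) (hN : 1 ≤ N) (hl : 0 ≤ l)
    (hZ : 1000 * n ^ 3 * N ^ 2 * (l + N) ≤ Z) (hg : 1 ≤ 4 * n ^ 3 * g) (hg0 : 0 < g) :
    17 * l * N ≤ Z * g / 4 ∧ 8 * N ^ 2 * (l + N) ≤ Z * g / 4 ∧ 4 * l ≤ Z := by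
  have hn0 : 0 < n := by linarith
  have hN0 : 0 < N := by linarith
  have hlN : 0 < l + N := by linarith
  have hn3 : 1 ≤ n ^ 3 := one_le_pow₀ hn
  have hN2 : 1 ≤ N ^ 2 := one_le_pow₀ hN
  have hZg : 250 * (N ^ 2 * (l + N)) ≤ Z * g := by
    calc 250 * (N ^ 2 * (l + N)) = 250 * (N ^ 2 * (l + N)) * 1 := by ring
      _ ≤ 250 * (N ^ 2 * (l + N)) * (4 * n ^ 3 * g) :=
          mul_le_mul_of_nonneg_left hg (by positivity)
      _ = 1000 * n ^ 3 * N ^ 2 * (l + N) * g := by ring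
      _ ≤ Z * g := mul_le_mul_of_nonneg_right hZ hg0.le
  have h1 : N ≤ N ^ 2 := by nlinarith only [hN]
  have hlN2 : l * N ≤ N ^ 2 * (l + N) := by
    calc l * N ≤ (l + N) * N ^ 2 := mul_le_mul (by linarith) h1 hN0.le hlN.le
      _ = _ := by ring
  have hpos : 0 < N ^ 2 * (l + N) := by positivity
  refine ⟨by linarith, by linarith, ?_⟩
  have h2 : 1 * 1 ≤ n ^ 3 * N ^ 2 := mul_le_mul hn3 hN2 (by norm_num) (by positivity)
  have h3 : 1 * (l + N) ≤ n ^ 3 * N ^ 2 * (l + N) := by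
    refine mul_le_mul_of_nonneg_right ?_ hlN.le
    linarith
  linarith

/-- the part of `Q` -/
theorem arithQ {N l Z e q EQ kQ VQ : ℝ} (hl : 0 ≤ l) (hZ0 : 0 < Z) (hδ : 4 * l ≤ Z)
    (he : e ≤ 0) (hq : 0 ≤ q) (h2 : e * q ≤ EQ) (h3 : kQ ≤ 4 * (EQ + 4 * N * q))
    (h4 : -(l * (kQ + N * q)) ≤ VQ) :
    Z ^ 2 * (e * q) - 17 * Z * l * N * q ≤ Z ^ 2 * EQ + Z * VQ := by
  have t1 : Z * -(l * (kQ + N * q)) ≤ Z * VQ := mul_le_mul_of_nonneg_left h4 hZ0.le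
  have t2 : Z * l * kQ ≤ Z * l * (4 * (EQ + 4 * N * q)) :=
    mul_le_mul_of_nonneg_left h3 (by positivity)
  have t3 : (Z * (Z - 4 * l)) * (e * q) ≤ (Z * (Z - 4 * l)) * EQ :=
    mul_le_mul_of_nonneg_left h2 (mul_nonneg hZ0.le (by linarith))
  have t4 : 4 * Z * l * (e * q) ≤ 0 := by
    have : e * q ≤ 0 := mul_nonpos_of_nonpos_of_nonneg he hq
    exact mul_nonpos_of_nonneg_of_nonpos (by positivity) this
  linarith

/-- the quadratic -/
theorem arithS {n N l Z g B q s : ℝ} (hN : 1 ≤ N) (hl : 0 ≤ l)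
    (hg : 1 ≤ 4 * n ^ 3 * g) (hg0 : 0 < g) (hB2 : B ^ 2 = 64 * N ^ 3 * (l + N) ^ 2)
    (hsq : s ^ 2 = q) :
    -(1000 * n ^ 3 * N ^ 3 * (l + N) ^ 2) ≤ Z ^ 2 * g / 2 * q - 2 * Z * B * s := by
  have hN0 : 0 < N := by linarith
  have hquad : -(2 * B ^ 2 / g) ≤ Z ^ 2 * g / 2 * q - 2 * Z * B * s := by
    rw [← hsq]
    have : 0 ≤ (Z * g * s - 2 * B) ^ 2 / (2 * g) := by positivity
    have e1 : (Z * g * s - 2 * B) ^ 2 / (2 * g) =
        Z ^ 2 * g / 2 * s ^ 2 - 2 * Z * B * s + 2 * B ^ 2 / g := by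
      field_simp
      ring
    linarith
  have herr : 2 * B ^ 2 / g ≤ 1000 * n ^ 3 * N ^ 3 * (l + N) ^ 2 := by
    rw [div_le_iff₀ hg0, hB2]
    have h5 : 0 ≤ N ^ 3 * (l + N) ^ 2 := by positivity
    calc 2 * (64 * N ^ 3 * (l + N) ^ 2) = 128 * (N ^ 3 * (l + N) ^ 2 * 1) := by ring
      _ ≤ 250 * (N ^ 3 * (l + N) ^ 2 * 1) := by linarith
      _ ≤ 250 * (N ^ 3 * (l + N) ^ 2 * (4 * n ^ 3 * g)) := by
          have := mul_le_mul_of_nonneg_left hg h5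
          linarith
      _ = _ := by ring
  linarith

/-- the arithmetic of the lower bound -/
theorem arith {n N l Z g e a q EQ kQ VQ VΦ X μ kΦ : ℝ} (hn : 1 ≤ n) (hN : 1 ≤ N) (hl : 0 ≤ l)
    (hZ : 1000 * n ^ 3 * N ^ 2 * (l + N) ≤ Z) (hg : 1 ≤ 4 * n ^ 3 * g) (heg : e + g ≤ 0)
    (hg0 : 0 < g) (_ : 0 ≤ a) (hq : 0 ≤ q) (haq : a + q = 1)
    (h2 : (e + g) * q ≤ EQ) (h3 : kQ ≤ 4 * (EQ + 4 * N * q)) (h4 : -(l * (kQ + N * q)) ≤ VQ)
    (hk : kΦ ≤ 16 * N * a) (hX : |X| ≤ 2 * (2 * N * (l + N) * Real.sqrt kΦ * Real.sqrt q))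
    (hΦ : μ * a ≤ VΦ) (hμ : μ ≤ 2 * N * (l + N) * Real.sqrt (16 * N)) :
    Z ^ 2 * e + Z * μ - 1000 * n ^ 3 * N ^ 3 * (l + N) ^ 2 ≤
      Z ^ 2 * (e * a + EQ) + Z * (VΦ + X + VQ) := by
  obtain ⟨c1, c2', hδ⟩ := arithZ hn hN hl hZ hg hg0
  have hn0 : 0 < n := by linarith
  have hN0 : 0 < N := by linarith
  have hlN : 0 < l + N := by linarith
  have hZ0 : 0 < Z := lt_of_lt_of_le (by positivity) hZ
  set B : ℝ := 2 * N * (l + N) * Real.sqrt (16 * N) with hB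
  have hB0 : 0 ≤ B := by positivity
  have hB2 : B ^ 2 = 64 * N ^ 3 * (l + N) ^ 2 := by
    rw [hB, mul_pow, Real.sq_sqrt (by positivity)]; ring
  have hBle : B ≤ 8 * N ^ 2 * (l + N) := by
    have hs : Real.sqrt (16 * N) ≤ 4 * N := by
      rw [Real.sqrt_le_left (by positivity)]
      nlinarith only [hN]
    calc B ≤ 2 * N * (l + N) * (4 * N) := mul_le_mul_of_nonneg_left hs (by positivity)
      _ = 8 * N ^ 2 * (l + N) := by ring
  have hX1 : |X| ≤ 2 * B * Real.sqrt q := by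
    have hs : Real.sqrt kΦ ≤ Real.sqrt (16 * N) := by
      refine Real.sqrt_le_sqrt (hk.trans ?_)
      have : 16 * N * a ≤ 16 * N * 1 := mul_le_mul_of_nonneg_left (by linarith) (by linarith)
      linarith
    calc |X| ≤ 2 * (2 * N * (l + N) * Real.sqrt kΦ * Real.sqrt q) := hX
      _ ≤ 2 * (2 * N * (l + N) * Real.sqrt (16 * N) * Real.sqrt q) := by gcongr
      _ = _ := by rw [hB]; ring
  have hX2 := neg_le_of_abs_le hX1
  have hsq : Real.sqrt q ^ 2 = q := Real.sq_sqrt hq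
  have hS := arithS (n := n) (Z := Z) hN hl hg hg0 hB2 hsq
  have hQ := arithQ hl hZ0 hδ heg hq h2 h3 h4
  have hZμ : Z * (μ * a) ≤ Z * VΦ := mul_le_mul_of_nonneg_left hΦ hZ0.le
  have hZX : Z * -(2 * B * Real.sqrt q) ≤ Z * X := mul_le_mul_of_nonneg_left hX2 hZ0.le
  have ha' : a = 1 - q := by linarith
  have hZq : 0 ≤ Z * q := mul_nonneg hZ0.le hq
  have d1 : (Z * q) * (17 * l * N) ≤ (Z * q) * (Z * g / 4) := mul_le_mul_of_nonneg_left c1 hZq
  have d2 : (Z * q) * μ ≤ (Z * q) * (Z * g / 4) :=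
    mul_le_mul_of_nonneg_left (hμ.trans (hBle.trans c2')) hZq
  have f1 : Z * (μ * a) = Z * μ - Z * q * μ := by rw [ha']; ring
  have f2 : Z ^ 2 * (e * a + EQ) = Z ^ 2 * e - Z ^ 2 * (e * q) + Z ^ 2 * EQ := by rw [ha']; ring
  have f3 : Z ^ 2 * ((e + g) * q) = Z ^ 2 * (e * q) + Z ^ 2 * g * q := by ring
  have f4 : (Z * q) * (Z * g / 4) = Z ^ 2 * g * q / 4 := by ring
  have f5 : Z ^ 2 * g / 2 * q = Z ^ 2 * g * q / 2 := by ring
  have f6 : (Z * q) * (17 * l * N) = 17 * Z * l * N * q := by ring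
  have f7 : Z * -(2 * B * Real.sqrt q) = -(2 * Z * B * Real.sqrt q) := by ring
  have f8 : Z * (VΦ + X + VQ) = Z * VΦ + Z * X + Z * VQ := by ring
  linarith

theorem normSq_nonneg' {N : ℕ} (Ψ : ElectronState N) : 0 ≤ normSq Ψ :=
  Fam.nsq_nonneg (fam Ψ)

/-! ### lower bound -/

theorem lower_of (hG : GapStmt) (hD : DecompStmt) (hT : TenEnStmt) (hH : HardyStmt)
    (hS : ScaleStmt) : LowerStmt := by
  classical
  intro n D ι _ _ S hn κ L y Zc M Z R hN hZ h H μ hex hμ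
  have hn' : (1 : ℝ) ≤ n := by exact_mod_cast hn
  have hN' : (1 : ℝ) ≤ nel n D := by exact_mod_cast hN
  have hZ' : 1000 * (n : ℝ) ^ 3 * (nel n D : ℝ) ^ 2 * (L.card + nel n D) ≤ Zc := by
    exact_mod_cast hZ
  have hZ1 : 1 ≤ Zc := by
    refine le_trans ?_ hZ
    have : 0 < 1000 * n ^ 3 * (nel n D) ^ 2 * (L.card + nel n D) := by positivity
    omega
  obtain ⟨_, hH1, hH2, hH3⟩ := hH κ L y (nel n D)
  obtain ⟨c0, hc0, hocc0, hn0⟩ := hex
  obtain ⟨e1, e2⟩ := hT n D ι S hn H c0 hc0 hocc0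
  have hneg := e0_add_gp hn hN
  have hgp := gp_pos hn
  -- kinetic energy of the states of the first part
  have hkin : ∀ (Φ : ElectronState (nel n D)),
      energy (pot 0) Φ = e0 n D * normSq Φ → kin Φ ≤ 16 * nel n D * normSq Φ := by
    intro Φ hΦ
    have h1 := hH3 Φ
    rw [hΦ] at h1
    have h2 : 0 ≤ normSq Φ := normSq_nonneg' Φ
    have h3 : e0 n D * normSq Φ ≤ 0 := mul_nonpos_of_nonpos_of_nonneg (by linarith) h2
    nlinarith
  refine (hS κ L y (nel n D) Zc M Z R hZ1 h).2 _ ⟨ofTen H c0 hc0, by rw [e2, hn0]⟩ ?_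
  intro Ψ hΨ
  obtain ⟨c, hc, Q, hocc, hamp, _, hcT, hn1, hn2, he1, he2⟩ := hD n D ι S hn H Ψ
  set Φ := ofTen H c hc with hΦ
  have hgap := hG n D ι S hn Q (Finset.univ.filter fun J => Occ S J) (by simp)
  have hz : ∑ J ∈ Finset.univ.filter (fun J => Occ S J), ‖cT (cu S) Q J‖ ^ 2 = 0 := by
    refine Finset.sum_eq_zero fun J hJ => ?_
    rw [hcT J (Finset.mem_filter.1 hJ).2]
    simp
  rw [hz, mul_zero, sub_zero] at hgap
  have hμB : μ ≤ 2 * nel n D * (L.card + nel n D) * Real.sqrt (16 * nel n D) := by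
    have k1 := hμ c0 hc0 hocc0 hn0
    have k2 := hH1 (ofTen H c0 hc0) (ofTen H c0 hc0)
    rw [V1_eq_pot, Complex.norm_real, Real.norm_eq_abs, e2, hn0, Real.sqrt_one, mul_one] at k2
    have k3 := hkin (ofTen H c0 hc0) (by rw [e1, e2])
    rw [e2, hn0, mul_one] at k3
    refine k1.trans ((le_abs_self _).trans (k2.trans ?_))
    exact mul_le_mul_of_nonneg_left (Real.sqrt_le_sqrt k3) (by positivity)
  have hV := V1_sum L y hamp
  rw [he2, hV]
  refine arith (kΦ := kin Φ) (kQ := kin Q) (g := gp n) (q := normSq Q) (X := 2 * (Fam.pot (pV L y) (fam Φ) (fam Q)).re)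
    hn' hN' (Nat.cast_nonneg _) hZ' (gp_ge hn) hneg hgp
    (normSq_nonneg' Φ) (normSq_nonneg' Q)
    (by rw [← hn2, hΨ]) hgap (hH3 Q) (hH2 Q) (hkin Φ he1) ?_ ?_ hμB
  · rw [abs_mul, abs_two]
    exact mul_le_mul_of_nonneg_left ((Complex.abs_re_le_norm _).trans (hH1 Φ Q)) (by norm_num)
  · rw [hn1]
    exact V1_ge L y H hμ c hc hocc

end

end Vale.Agent.P370.C2
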