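import Vale.Agent.P370.C2.Defs
import Vale.Agent.P363.H849.Hydrogen
import Vale.Agent.P363.R.Sob.S16

/-! Problem P370, block C2, piece O: the orbitals of a filled system. -/

namespace Vale.Agent.P370.C2

open MeasureTheory Filter Topology
open Vale.Agent.P363.Stmt Vale.Agent.P363.R.Sob Vale.Agent.P363.H382 Vale.Agent.P363.R.Top
open Vale.Agent.P363.H95 (OneBody Orth AntiT ofTen cT Eig)
open Vale.Agent.P363.H518 (coef)
open Vale.Agent.P363.H849 (H1 m1 m2 mW ip dir bc ip_apply dir_apply bc_apply hardyInt memLp_re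
  memLp_im isWD_re isWD_im)
open Vale.Agent.P370.H624 (Filled se Shell Shell_eig)
open scoped ContDiff ENNReal ComplexConjugate

noncomputable section

section gen

/-- complexification of a real function with weak derivative -/
theorem isWD_ofReal {v : R3} {f g : R3 → ℝ} (h : IsWD volume v f g) :
    IsWD volume v (fun x => (f x : ℂ)) (fun x => (g x : ℂ)) := by
  intro φ hφ
  have h1 := h φ hφ
  have e1 : ∫ x, (fderiv ℝ φ x v) • (f x : ℂ) = ((∫ x, (fderiv ℝ φ x v) • f x : ℝ) : ℂ) := by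
    rw [← integral_complex_ofReal]
    congr 1; funext x
    simp [Complex.real_smul]
  have e2 : ∫ x, φ x • (g x : ℂ) = ((∫ x, φ x • g x : ℝ) : ℂ) := by
    rw [← integral_complex_ofReal]
    congr 1; funext x
    simp [Complex.real_smul]
  rw [e1, e2, ← Complex.ofReal_neg]
  congr 1

/-- `u / |x|` is square integrable -/
theorem memLp_div_norm (u : H1) : MemLp (fun x => u.1.1 x / ‖x‖) 2 := by
  have h := (hardy (μ := (volume : Measure R3)) (ContinuousLinearMap.id ℝ R3) 0
    (fun k => EuclideanSpace.single k 1) (fun k => rfl) (m1 u) (fun k => m2 u k)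
    (fun k => mW u k)).1
  have hm : AEStronglyMeasurable (fun x => u.1.1 x / ‖x‖) (volume : Measure R3) := by
    simp only [div_eq_mul_inv]
    exact (m1 u).1.mul measurable_norm.inv.aestronglyMeasurable
  rw [memLp_two_iff_integrable_sq_norm hm]
  refine h.congr (Eventually.of_forall fun x => ?_)
  simp [div_pow]

end gen

variable {n : ℕ} {ι : Type} [Fintype ι] [DecidableEq ι]

theorem oneBody (S : Filled n ι) : OneBody (cu S) (cgu S) where
  mem a := (m1 (S.φ a)).ofReal
  gmem a k := (m2 (S.φ a) k).ofReal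
  wd a k := isWD_ofReal (mW (S.φ a) k)

theorem coef_cu (S : Filled n ι) (a : ι) (f : R3 → ℂ) :
    coef volume (cu S a) f = ∫ x, (S.orb a x : ℂ) * f x := by
  unfold coef cu
  congr 1; funext x
  rw [Complex.conj_ofReal]; rfl

theorem orth (S : Filled n ι) : Orth (cu S) := by
  intro a b
  rw [coef_cu]
  have h := S.on a b
  rw [ip_apply] at h
  have e : ∫ x, (S.orb a x : ℂ) * cu S b x = ((∫ x, (S.φ a).1.1 x * (S.φ b).1.1 x : ℝ) : ℂ) := by
    rw [← integral_complex_ofReal]
    congr 1; funext x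
    unfold cu
    push_cast; rfl
  rw [e, h]
  split_ifs <;> simp

theorem memLp_v (S : Filled n ι) (a : ι) :
    MemLp (fun r => ((-(1 / ‖r‖) : ℝ) : ℂ) * cu S a r) 2 (volume : Measure R3) := by
  have h2 := ((memLp_div_norm (S.φ a)).ofReal (K := ℂ)).neg
  refine h2.congr_norm ?_ (ae_of_all _ fun x => ?_)
  · refine h2.1.congr (ae_of_all _ fun x => ?_)
    simp [cu]; ring
  · simp [cu]; ring

/-- weak eigenvalue equation, real form -/
theorem eig_real {j : ℕ} {w : H1} (hw : w ∈ Shell j) {f : R3 → ℝ} {g : Fin 3 → R3 → ℝ}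
    (hf : MemLp f 2) (hg : ∀ k, MemLp (g k) 2) (hW : ∀ k, IsWD volume (e3 k) f (g k)) :
    (1 / 2) * (∑ k, ∫ x, w.1.2 k x * g k x) - ∫ x, w.1.1 x * f x / ‖x‖
      = se j * ∫ x, w.1.1 x * f x := by
  have h := Shell_eig hw ⟨(f, g), hf, hg, hW⟩
  rw [dir_apply, ip_apply, bc_apply] at h
  have e1 : ∀ k, ∫ x, w.1.2 k x * g k x = ∫ x, g k x * w.1.2 k x := fun k => by
    congr 1; funext x; ring
  have e2 : ∫ x, w.1.1 x * f x = ∫ x, f x * w.1.1 x := by congr 1; funext x; ring
  have e3 : ∫ x, w.1.1 x * f x / ‖x‖ = ∫ x, f x * w.1.1 x / ‖x‖ := by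
    congr 1; funext x; ring
  simp only [e1, e2, e3]
  exact h

theorem int_mul {w : R3 → ℝ} (hw : MemLp w 2) {f : R3 → ℂ} (hf : MemLp f 2) :
    Integrable (fun x => (w x : ℂ) * f x) := (hw.ofReal (K := ℂ)).integrable_mul hf

theorem re_int_mul {w : R3 → ℝ} (hw : MemLp w 2) {f : R3 → ℂ} (hf : MemLp f 2) :
    (∫ x, (w x : ℂ) * f x).re = ∫ x, w x * (f x).re := by
  have := (Complex.reCLM.integral_comp_comm (int_mul hw hf)).symm
  simp only [Complex.reCLM_apply, Complex.mul_re, Complex.ofReal_re, Complex.ofReal_im,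
    zero_mul, sub_zero] at this
  exact this

theorem im_int_mul {w : R3 → ℝ} (hw : MemLp w 2) {f : R3 → ℂ} (hf : MemLp f 2) :
    (∫ x, (w x : ℂ) * f x).im = ∫ x, w x * (f x).im := by
  have := (Complex.imCLM.integral_comp_comm (int_mul hw hf)).symm
  simp only [Complex.imCLM_apply, Complex.mul_im, Complex.ofReal_re, Complex.ofReal_im,
    zero_mul, add_zero] at this
  exact this

theorem eig (S : Filled n ι) (a : ι) :
    Eig (fun r => -(1 / ‖r‖)) (se (S.lv a)) (cu S a) (cgu S a) := by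
  intro f g hf hg hW
  have hr := eig_real (S.mem a) (memLp_re hf) (fun k => memLp_re (hg k))
    (fun k => isWD_re hf (hg k) (hW k))
  have hi := eig_real (S.mem a) (memLp_im hf) (fun k => memLp_im (hg k))
    (fun k => isWD_im hf (hg k) (hW k))
  have e1 : ∀ k, coef volume (cgu S a k) (g k) = ∫ x, (((S.φ a).1.2 k x : ℝ) : ℂ) * g k x := by
    intro k
    unfold coef cgu
    congr 1; funext x
    rw [Complex.conj_ofReal]
  have e2 : coef volume (fun r => ((-(1 / ‖r‖) : ℝ) : ℂ) * cu S a r) f =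
      -∫ x, (((S.φ a).1.1 x / ‖x‖ : ℝ) : ℂ) * f x := by
    unfold coef cu
    rw [← integral_neg]
    congr 1; funext x
    rw [map_mul, Complex.conj_ofReal, Complex.conj_ofReal]
    push_cast
    ring
  have e3 : coef volume (cu S a) f = ∫ x, (((S.φ a).1.1 x : ℝ) : ℂ) * f x := coef_cu S a f
  have half : (1 / 2 : ℂ) = ((1 / 2 : ℝ) : ℂ) := by push_cast; rfl
  simp only [e1, e2, e3]
  have d1 : ∀ h : R3 → ℝ, ∫ x, (S.φ a).1.1 x / ‖x‖ * h x = ∫ x, (S.φ a).1.1 x * h x / ‖x‖ := by
    intro h; congr 1; funext x; ring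
  apply Complex.ext
  · rw [Complex.add_re, Complex.neg_re, half, Complex.re_ofReal_mul, Complex.re_ofReal_mul,
      Complex.re_sum, re_int_mul (m1 _) hf, re_int_mul (memLp_div_norm _) hf]
    simp only [re_int_mul (m2 _ _) (hg _)]
    rw [d1]
    linarith
  · rw [Complex.add_im, Complex.neg_im, half, Complex.im_ofReal_mul, Complex.im_ofReal_mul,
      Complex.im_sum, im_int_mul (m1 _) hf, im_int_mul (memLp_div_norm _) hf]
    simp only [im_int_mul (m2 _ _) (hg _)]
    rw [d1]
    linarith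

theorem orbStmt : OrbStmt := fun _ _ _ _ S => ⟨oneBody S, orth S, memLp_v S, eig S⟩

end

end Vale.Agent.P370.C2
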