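import Vale.Agent.P370.C2.Defs
import Vale.Agent.P363.H868.Scale
import Vale.Agent.P363.R801.QForm
import Vale.Agent.P370.H399.Bdd

/-!
Problem P370, block C2, piece S: scaling.
-/

namespace Vale.Agent.P370.C2

open MeasureTheory Filter Topology
open Vale.Agent.P363.Stmt Vale.Agent.P363.R.Sob Vale.Agent.P363.H382 Vale.Agent.P363.R.Top
open Vale.Agent.P363.H943 (Fam fam Adm)
open Vale.Agent.P363.R801 (adm_add adm_const_mul adm_sum adm_one adm_two)
open Vale.Agent.P363.H868 (dil normSq_dil energy_dil rep_smul)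
open scoped ContDiff ENNReal ComplexConjugate

noncomputable section

variable {κ : Type} (L : Finset κ) (y : κ → R3) {N : ℕ}

theorem adm_center (a : R3) (i : Fin N) : Adm (fun z : Conf N => 1 / ‖z i - a‖) where
  meas := by
    simp only [one_div]
    exact ((by fun_prop : Continuous fun z : Conf N => ‖z i - a‖).measurable.inv).aestronglyMeasurable
  int f g hf hg h := by
    refine (H399.one_le a hf hg h i).1.congr (Eventually.of_forall fun x => ?_)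
    simp only [div_eq_mul_inv]; ring

theorem adm_rep : Adm (rep : Conf N → ℝ) :=
  adm_sum Finset.univ (v := fun (i : Fin N) (z : Conf N) => ∑ k ∈ Finset.Ioi i, 1 / ‖z i - z k‖)
    fun _ _ => adm_sum _ fun _ hk => adm_two (ne_of_lt (Finset.mem_Ioi.1 hk))

theorem adm_pot0 : Adm (pot 0 : Conf N → ℝ) := by
  have h1 := adm_sum Finset.univ (v := fun (i : Fin N) (z : Conf N) =>
    -1 * (1 / ‖z i‖)) fun i _ => adm_const_mul (adm_one i) (-1)
  have e : (pot 0 : Conf N → ℝ) = fun z => ∑ i : Fin N, -1 * (1 / ‖z i‖) := by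
    funext z
    simp [pot]
  rw [e]
  exact h1

theorem adm_pV : Adm (pV L y : Conf N → ℝ) := by
  have h1 := adm_sum Finset.univ (v := fun (i : Fin N) (z : Conf N) =>
    -1 * ∑ k ∈ L, 1 / ‖z i - y k‖) fun i _ => adm_const_mul
      (adm_sum L (v := fun k (z : Conf N) => 1 / ‖z i - y k‖) fun k _ => adm_center (y k) i) (-1)
  have e : (pV L y : Conf N → ℝ) = fun z => (∑ i : Fin N, -1 * ∑ k ∈ L, 1 / ‖z i - y k‖) + rep z := by
    funext z
    simp only [pV, sumPotential, neg_mul, one_mul]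
  rw [e]
  exact adm_add h1 adm_rep

/-- the energy is affine in the potential -/
theorem energy_add_mul {v w : Conf N → ℝ} (hv : Adm v) (hw : Adm w) (c : ℝ)
    (Ψ : ElectronState N) :
    energy (fun x => v x + c * w x) Ψ =
      energy v Ψ + c * ∑ s, intR fun x => w x * ‖Ψ.amp s x‖ ^ 2 := by
  have key : ∀ s, (intR fun x => (v x + c * w x) * ‖Ψ.amp s x‖ ^ 2) =
      (intR fun x => v x * ‖Ψ.amp s x‖ ^ 2) + c * intR fun x => w x * ‖Ψ.amp s x‖ ^ 2 := by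
    intro s
    have i1 := Fam.int_w_sq hv (fam Ψ) s
    have i2 := Fam.int_w_sq hw (fam Ψ) s
    simp only [intR_eq]
    rw [← integral_const_mul]
    refine Eq.trans ?_ (integral_add i1 (i2.const_mul c))
    refine integral_congr_ae (Eventually.of_forall fun x => ?_)
    simp only
    ring
  unfold energy
  simp only [key, Finset.sum_add_distrib, ← Finset.mul_sum]
  ring

theorem coulomb_scaled {Zc M : ℕ} {Z : Fin M → ℕ} {R : Fin M → R3} (hZ : 1 ≤ Zc)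
    (h : ∀ x : R3, ∑ j, (Z j : ℝ) / ‖x - R j‖ =
      Zc / ‖x‖ + ∑ k ∈ L, 1 / ‖x - (1 / (Zc : ℝ)) • y k‖) (x : Conf N) :
    ((Zc : ℝ) ^ 2)⁻¹ * coulombPotential Z R ((Zc : ℝ)⁻¹ • x) =
      pot 0 x + (Zc : ℝ)⁻¹ * pV L y x := by
  have hc : (0 : ℝ) < Zc := by exact_mod_cast hZ
  have e0 : coulombPotential Z R ((Zc : ℝ)⁻¹ • x) =
      (∑ i, -(∑ j, (Z j : ℝ) / ‖((Zc : ℝ)⁻¹ • x) i - R j‖)) + rep ((Zc : ℝ)⁻¹ • x) := by
    unfold coulombPotential rep
    congr 1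
    exact Finset.sum_congr rfl fun i _ => by rw [Finset.sum_neg_distrib]
  rw [e0, rep_smul (inv_pos.2 hc), inv_inv]
  simp only [h]
  have e1 : ∀ i : Fin N, (Zc : ℝ) / ‖((Zc : ℝ)⁻¹ • x) i‖ = (Zc : ℝ) ^ 2 * (1 / ‖x i‖) := by
    intro i
    rw [Pi.smul_apply, norm_smul, Real.norm_eq_abs, abs_of_pos (inv_pos.2 hc)]
    by_cases hx : ‖x i‖ = 0
    · simp [hx]
    · field_simp
  have e2 : ∀ i : Fin N, ∀ k, 1 / ‖((Zc : ℝ)⁻¹ • x) i - (1 / (Zc : ℝ)) • y k‖ =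
      (Zc : ℝ) * (1 / ‖x i - y k‖) := by
    intro i k
    rw [Pi.smul_apply, one_div (Zc : ℝ), ← smul_sub, norm_smul, Real.norm_eq_abs,
      abs_of_pos (inv_pos.2 hc)]
    by_cases hx : ‖x i - y k‖ = 0
    · simp [hx]
    · field_simp
  simp only [e1, e2, ← Finset.mul_sum]
  unfold pot pV sumPotential
  rw [Finset.sum_neg_distrib, Finset.sum_neg_distrib, Finset.sum_neg_distrib,
    Finset.sum_add_distrib, ← Finset.mul_sum, ← Finset.mul_sum]
  have hc0 : (Zc : ℝ) ≠ 0 := hc.ne'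
  field_simp
  ring

theorem scaleStmt : ScaleStmt := by
  intro κ L y N Zc M Z R hZ h
  have hc : (0 : ℝ) < Zc := by exact_mod_cast hZ
  have hc0 : (Zc : ℝ) ≠ 0 := hc.ne'
  set w : Conf N → ℝ := coulombPotential Z R with hw
  have hw1 : (fun x : Conf N => ((Zc : ℝ) ^ 2)⁻¹ * w ((Zc : ℝ)⁻¹ • x)) =
      fun x => pot 0 x + (Zc : ℝ)⁻¹ * pV L y x := by
    funext x
    exact coulomb_scaled L y hZ h x
  have key : ∀ Ψ : ElectronState N, (Zc : ℝ) ^ 2 * energy (fun x : Conf N =>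
      ((Zc : ℝ) ^ 2)⁻¹ * w ((Zc : ℝ)⁻¹ • x)) Ψ =
        (Zc : ℝ) ^ 2 * energy (pot 0) Ψ + Zc * V1 L y Ψ := by
    intro Ψ
    rw [hw1, energy_add_mul adm_pot0 (adm_pV L y)]
    unfold V1
    field_simp
  refine ⟨fun Ψ hΨ => ?_, fun E ⟨Ψ₀, hΨ₀⟩ hE => ?_⟩
  · refine csInf_le (H399.bddStmt _ _ Z R) ⟨dil Zc hc Ψ, by rw [normSq_dil, hΨ], ?_⟩
    rw [energy_dil, key]
  · refine le_csInf ⟨_, Ψ₀, hΨ₀, rfl⟩ ?_
    rintro e ⟨Ψ, hΨ, rfl⟩
    have hc' : 0 < (Zc : ℝ)⁻¹ := by positivity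
    have h1 := hE (dil (Zc : ℝ)⁻¹ hc' Ψ) (by rw [normSq_dil, hΨ])
    rw [← key, energy_dil] at h1
    have hw2 : (fun x : Conf N => (((Zc : ℝ)⁻¹) ^ 2)⁻¹ *
        (((Zc : ℝ) ^ 2)⁻¹ * w ((Zc : ℝ)⁻¹ • ((Zc : ℝ)⁻¹)⁻¹ • x))) = w := by
      funext x
      rw [inv_inv, smul_smul, inv_mul_cancel₀ hc0, one_smul]
      field_simp
    rw [hw2] at h1
    refine h1.trans (le_of_eq ?_)
    rw [← hw]
    field_simp

end

end Vale.Agent.P370.C2
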